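import Vale.Agent.P038.H248.Star

/-!
# P038: inner cost at most outer cost (helper248, following notes 22687 and 22807)
-/

open Finset

namespace Vale.Agent.P038.H248

variable {V : Type*} [Fintype V] [DecidableEq V]

/-- Compatible pairs of families. -/
structure Feas (N P Q : V → Finset V) : Prop where
  hP : ∀ a, N a ⊆ P a
  hQ : ∀ b, N b ⊆ Q b
  hc : ∀ a b, b ∈ P a → a ∈ Q b → a = b

/-- The cost of a pair of families. -/
def cost (N P Q : V → Finset V) : ℕ := ∑ a, cn N (P a) + ∑ b, cn N (Q b)

theorem cost_update_left {N P Q : V → Finset V} {a : V} {S : Finset V}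
    (h : cost N P Q ≤ cost N (Function.update P a S) Q) : cn N (P a) ≤ cn N S := by
  unfold cost at h
  have h1 := add_sum_erase univ (fun x => cn N (P x)) (mem_univ a)
  have h2 := add_sum_erase univ (fun x => cn N (Function.update P a S x)) (mem_univ a)
  have h3 : ∑ x ∈ univ.erase a, cn N (Function.update P a S x) =
      ∑ x ∈ univ.erase a, cn N (P x) := by
    refine sum_congr rfl fun x hx => ?_
    rw [Function.update_of_ne (mem_erase.1 hx).1]
  simp only [Function.update_self] at h2
  omega

theorem cost_update_right {N P Q : V → Finset V} {a : V} {S : Finset V}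
    (h : cost N P Q ≤ cost N P (Function.update Q a S)) : cn N (Q a) ≤ cn N S := by
  unfold cost at h
  have h1 := add_sum_erase univ (fun x => cn N (Q x)) (mem_univ a)
  have h2 := add_sum_erase univ (fun x => cn N (Function.update Q a S x)) (mem_univ a)
  have h3 : ∑ x ∈ univ.erase a, cn N (Function.update Q a S x) =
      ∑ x ∈ univ.erase a, cn N (Q x) := by
    refine sum_congr rfl fun x hx => ?_
    rw [Function.update_of_ne (mem_erase.1 hx).1]
  simp only [Function.update_self] at h2
  omega

theorem double_count (p : V → V → Prop) [∀ a b, Decidable (p a b)] :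
    ∑ b, (univ.filter fun x => p b x).card = ∑ x, (univ.filter fun b => p b x).card := by
  simp only [card_filter]
  exact sum_comm

/-- The upper family. -/
def up (Q : V → Finset V) (a : V) : Finset V := univ.filter fun x => a ∉ Q x ∨ x = a

theorem mem_up {Q : V → Finset V} {a x : V} : x ∈ up Q a ↔ a ∉ Q x ∨ x = a := by
  simp [up]

/-- The inner pair has cost at most the cost of the outer minimiser. -/
theorem inner_le_outer {N : V → Finset V} (hN : ∀ v, v ∈ N v) {P Q : V → Finset V}
    (hf : Feas N P Q) (hmin : ∀ P' Q', Feas N P' Q' → cost N P Q ≤ cost N P' Q') :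
    cost N (er N P) (er N Q) ≤ cost N P Q := by
  classical
  have haP : ∀ a, a ∈ P a := fun a => hf.hP a (hN a)
  have haQ : ∀ a, a ∈ Q a := fun a => hf.hQ a (hN a)
  have hLU : ∀ a, P a ⊆ up Q a := by
    intro a x hx
    rw [mem_up]
    by_cases h : a ∈ Q x
    · exact Or.inr (hf.hc a x hx h).symm
    · exact Or.inl h
  have hrow : ∀ a S, P a ⊆ S → S ⊆ up Q a → cn N (P a) ≤ cn N S := by
    intro a S h1 h2
    apply cost_update_left (N := N) (P := P) (Q := Q)
    apply hmin
    constructor
    · intro a'
      by_cases h : a' = a
      · subst h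
        rw [Function.update_self]
        exact (hf.hP a').trans h1
      · rw [Function.update_of_ne h]
        exact hf.hP a'
    · exact hf.hQ
    · intro a' b hb ha'
      by_cases h : a' = a
      · subst h
        rw [Function.update_self] at hb
        rcases mem_up.1 (h2 hb) with h | h
        · exact absurd ha' h
        · exact h.symm
      · rw [Function.update_of_ne h] at hb
        exact hf.hc a' b hb ha'
  have hcol : ∀ b (T : Finset V), (∀ a ∈ T, b ∈ up Q a ∧ b ∉ P a) →
      T.card ≤ ((NS N T).filter fun v => b ∈ er N (up Q) v).card := by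
    intro b T hT
    have hTQ : ∀ a ∈ T, a ∉ Q b := by
      intro a ha
      rcases mem_up.1 (hT a ha).1 with h | h
      · exact h
      · exact absurd (h ▸ haP a) (hT a ha).2
    have hle : cn N (Q b) ≤ cn N (Q b ∪ T) := by
      apply cost_update_right (N := N) (P := P) (Q := Q)
      apply hmin
      constructor
      · exact hf.hP
      · intro b'
        by_cases h : b' = b
        · subst h
          rw [Function.update_self]
          exact (hf.hQ b').trans subset_union_left
        · rw [Function.update_of_ne h]
          exact hf.hQ b'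
      · intro a b' hb' ha
        by_cases h : b' = b
        · subst h
          rw [Function.update_self, mem_union] at ha
          rcases ha with ha | ha
          · exact hf.hc a b' hb' ha
          · exact absurd hb' (hT a ha).2
        · rw [Function.update_of_ne h] at ha
          exact hf.hc a b' hb' ha
    have h1 := cn_add hN (Q b)
    have h2 := cn_add hN (Q b ∪ T)
    have h3 : (Q b ∪ T).card = (Q b).card + T.card := by
      apply card_union_of_disjoint
      rw [disjoint_left]
      exact fun x hx hx' => hTQ x hx' hx
    have h4 : (NS N (Q b ∪ T)).card = (NS N (Q b)).card + (NS N T \ NS N (Q b)).card := by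
      rw [NS_union, ← union_sdiff_self_eq_union]
      apply card_union_of_disjoint
      exact disjoint_sdiff
    have h5 : (NS N T \ NS N (Q b)).card ≤
        ((NS N T).filter fun v => b ∈ er N (up Q) v).card := by
      apply card_le_card
      intro v hv
      rw [mem_sdiff, mem_NS (S := Q b)] at hv
      rw [mem_filter]
      refine ⟨hv.1, mem_er.2 fun z hz => mem_up.2 (Or.inl fun h => hv.2 ⟨z, h, hz⟩)⟩
    omega
  have hstar := star hN hLU hrow hcol
  -- bookkeeping
  have hfull : ∀ S : Finset V, S.card + (univ.filter fun x => x ∉ S).card = Fintype.card V := by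
    intro S
    have : (univ.filter fun x => x ∉ S) = Sᶜ := by
      ext x
      simp
    rw [this, card_compl]
    have := card_le_univ S
    omega
  have hQup : ∑ b, (univ.filter fun x => x ∉ Q b).card + Fintype.card V =
      ∑ x, (up Q x).card := by
    rw [double_count (fun b x => x ∉ Q b)]
    have : Fintype.card V = ∑ _x : V, 1 := by simp
    rw [this, ← sum_add_distrib]
    refine sum_congr rfl fun x _ => ?_
    have : (univ.filter fun b => x ∉ Q b) = (up Q x).erase x := by
      ext b
      simp only [mem_filter, mem_univ, true_and, mem_erase, mem_up]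
      constructor
      · intro h
        refine ⟨?_, Or.inl h⟩
        rintro rfl
        exact h (haQ _)
      · rintro ⟨h, h' | h'⟩
        · exact h'
        · exact absurd h' h
    rw [this]
    exact card_erase_add_one (mem_up.2 (Or.inr rfl))
  have hxX : ∀ x, x ∈ er N (up Q) x := by
    intro x
    refine mem_er.2 fun z hz => mem_up.2 ?_
    by_cases h : z ∈ Q x
    · exact Or.inr (hf.hc z x (hf.hP z hz) h).symm
    · exact Or.inl h
  have hNQ : ∑ b, (univ.filter fun x => x ∉ NS N (Q b)).card + Fintype.card V =
      ∑ x, (er N (up Q) x).card := by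
    rw [double_count (fun b x => x ∉ NS N (Q b))]
    have : Fintype.card V = ∑ _x : V, 1 := by simp
    rw [this, ← sum_add_distrib]
    refine sum_congr rfl fun x _ => ?_
    have : (univ.filter fun b => x ∉ NS N (Q b)) = (er N (up Q) x).erase x := by
      ext b
      simp only [mem_filter, mem_univ, true_and, mem_erase, mem_er, mem_NS, not_exists, not_and]
      constructor
      · intro h
        refine ⟨?_, fun z hz => mem_up.2 (Or.inl fun h' => h z h' hz)⟩
        rintro rfl
        exact h b (haQ b) (hN b)
      · rintro ⟨h, h'⟩ z hz hxz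
        rcases mem_up.1 (h' z hxz) with h1 | h1
        · exact h1 hz
        · subst h1
          have h2 := h' x (hN x)
          rcases mem_up.1 h2 with h3 | h3
          · exact h3 (hf.hQ b hxz)
          · exact h h3
    rw [this]
    exact card_erase_add_one (hxX x)
  have hY : ∑ b, (univ.filter fun x => x ∉ er N Q b).card + Fintype.card V ≤
      ∑ x, (NS N (up Q x)).card := by
    rw [double_count (fun b x => x ∉ er N Q b)]
    have : Fintype.card V = ∑ _x : V, 1 := by simp
    rw [this, ← sum_add_distrib]
    refine sum_le_sum fun x _ => ?_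
    have hsub : (univ.filter fun b => x ∉ er N Q b) ⊆ (NS N (up Q x)).erase x := by
      intro b hb
      simp only [mem_filter, mem_univ, true_and, mem_er, not_forall] at hb
      obtain ⟨z, hz, hx⟩ := hb
      rw [mem_erase]
      constructor
      · rintro rfl
        exact hx (hf.hQ z hz)
      · exact mem_NS.2 ⟨z, mem_up.2 (Or.inl hx), hz⟩
    have h1 := card_le_card hsub
    have h2 := card_erase_add_one (s := NS N (up Q x)) (a := x)
      (mem_NS.2 ⟨x, mem_up.2 (Or.inr rfl), hN x⟩)
    omega
  have hNY : ∑ x, (NS N (er N (up Q) x)).card ≤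
      ∑ b, (univ.filter fun x => x ∉ NS N (er N Q b)).card + Fintype.card V := by
    rw [double_count (fun b x => x ∉ NS N (er N Q b))]
    have : Fintype.card V = ∑ _x : V, 1 := by simp
    rw [this, ← sum_add_distrib]
    refine sum_le_sum fun x _ => ?_
    have hsub : (NS N (er N (up Q) x)).erase x ⊆
        (univ.filter fun b => x ∉ NS N (er N Q b)) := by
      intro b hb
      rw [mem_erase, mem_NS] at hb
      obtain ⟨hbx, u, hu, hbu⟩ := hb
      rw [mem_filter, mem_NS]
      refine ⟨mem_univ _, ?_⟩
      rintro ⟨y, hy, hxy⟩
      have h1 := mem_up.1 (mem_er.1 hu y hxy)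
      have h2 := mem_er.1 hy u hbu
      rcases h1 with h1 | h1
      · exact h1 h2
      · subst h1
        rcases mem_up.1 (mem_er.1 hu x (hN x)) with h3 | h3
        · exact h3 (hf.hQ u hxy)
        · subst h3
          exact hbx (hf.hc u b (hf.hP u hbu) (mem_er.1 hy b (hN b))).symm
    have h1 := card_le_card hsub
    have h2 := card_erase_add_one (s := NS N (er N (up Q) x)) (a := x)
      (mem_NS.2 ⟨x, hxX x, hN x⟩)
    omega
  -- sums of `cn`
  have c1 : ∀ F : V → Finset V, ∑ b, cn N (F b) +
      ∑ b, (univ.filter fun x => x ∉ NS N (F b)).card =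
      ∑ b, (univ.filter fun x => x ∉ F b).card := by
    intro F
    rw [← sum_add_distrib]
    refine sum_congr rfl fun b _ => ?_
    have h1 := cn_add hN (F b)
    have h2 := hfull (F b)
    have h3 := hfull (NS N (F b))
    omega
  have c2 : ∀ F : V → Finset V, ∑ b, cn N (F b) + ∑ b, (F b).card =
      ∑ b, (NS N (F b)).card := by
    intro F
    rw [← sum_add_distrib]
    exact sum_congr rfl fun b _ => cn_add hN (F b)
  have a1 := c1 Q
  have a2 := c1 (er N Q)
  have a3 := c2 (up Q)
  have a4 := c2 (er N (up Q))
  unfold cost
  omega

end Vale.Agent.P038.H248
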