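import Vale.Agent.P038.H248.Lk
import Vale.Agent.P038.Defs

/-!
# P038: Seymour's second neighbourhood conjecture (helper248, following notes 20944, 22687, 22807)
-/

open Finset

namespace Vale.Agent.P038.H248

variable {V : Type*} [Fintype V] [DecidableEq V]

/-- A counterexample, given by its closed out-neighbourhoods. -/
structure CE (N : V → Finset V) : Prop where
  refl : ∀ v, v ∈ N v
  anti : ∀ u v, u ∈ N v → v ∈ N u → u = v
  ce : ∀ v, cn N (N v) + 1 < (N v).card

/-- Helper294's theorem (G) for an arc-minimal counterexample. -/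
theorem minimal_G {N : V → Finset V} (h : CE N)
    (hmin : ∀ N' : V → Finset V, CE N' → ∑ v, (N v).card ≤ ∑ v, (N' v).card) (X : Finset V)
    (hX : NS N X ≠ X) : cn N (NS N X) < cn N X := by
  classical
  by_contra hcon
  push Not at hcon
  obtain ⟨L, hL⟩ : ∃ L, L = NS N X \ X := ⟨_, rfl⟩
  have hXN := subset_NS h.refl X
  have hLne : L.Nonempty := by
    rw [hL, sdiff_nonempty]
    exact fun h' => hX (Subset.antisymm h' hXN)
  have hLX : ∀ x ∈ L, x ∉ X := fun x hx => by
    rw [hL, mem_sdiff] at hx
    exact hx.2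
  have hNX : ∀ y ∈ X, ∀ x ∈ N y, x ∉ X → x ∈ L := by
    intro y hy x hx hxX
    rw [hL, mem_sdiff]
    exact ⟨mem_NS.2 ⟨y, hy, hx⟩, hxX⟩
  obtain ⟨T, hT, hTmin⟩ := exists_min_image L.ssubsets
    (fun T => ((NS N T \ X).card : ℤ) - 2 * T.card)
    ⟨∅, mem_ssubsets.2 (empty_ssubset.2 hLne)⟩
  rw [mem_ssubsets] at hT
  have hdL : 2 * L.card ≤ (NS N L \ X).card := by
    have h1 : (NS N (NS N X) \ NS N X) ∪ L ⊆ NS N L \ X := by
      intro w hw
      rw [mem_union] at hw
      rw [mem_sdiff]
      rcases hw with hw | hw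
      · rw [mem_sdiff, mem_NS] at hw
        obtain ⟨⟨u, hu, hwu⟩, hw⟩ := hw
        refine ⟨mem_NS.2 ⟨u, ?_, hwu⟩, fun h' => hw (hXN h')⟩
        rw [hL, mem_sdiff]
        exact ⟨hu, fun h' => hw (mem_NS.2 ⟨u, h', hwu⟩)⟩
      · exact ⟨subset_NS h.refl L hw, hLX w hw⟩
    have h2 : Disjoint (NS N (NS N X) \ NS N X) L := by
      rw [disjoint_left]
      intro w hw hw'
      rw [hL, mem_sdiff] at hw'
      rw [mem_sdiff] at hw
      exact hw.2 hw'.1
    have h3 := card_le_card h1
    rw [card_union_of_disjoint h2] at h3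
    have h4 : cn N X = L.card := by rw [hL]; rfl
    have h5 : cn N (NS N X) = (NS N (NS N X) \ NS N X).card := rfl
    omega
  have hmin' : ∀ T', T' ⊆ L → ((NS N T \ X).card : ℤ) - 2 * T.card ≤
      ((NS N T' \ X).card : ℤ) - 2 * T'.card := by
    intro T' hT'
    rcases eq_or_ssubset_of_subset hT' with h' | h'
    · subst h'
      have h0 := hTmin ∅ (mem_ssubsets.2 (empty_ssubset.2 hLne))
      have h1 : NS N (∅ : Finset V) = ∅ := by
        ext x
        simp [mem_NS]
      rw [h1] at h0
      simp only [empty_sdiff, card_empty, Nat.cast_zero, mul_zero, sub_zero] at h0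
      omega
    · exact hTmin T' (mem_ssubsets.2 h')
  -- the smaller counterexample
  obtain ⟨N', hN'⟩ : ∃ N' : V → Finset V, ∀ y, N' y = if y ∈ X then N y \ (L \ T) else N y :=
    ⟨_, fun _ => rfl⟩
  have hsub : ∀ y, N' y ⊆ N y := by
    intro y
    rw [hN']
    split_ifs
    · exact sdiff_subset
    · exact Subset.refl _
  have hinX : ∀ y ∈ X, ∀ x ∈ N' y, x ∈ X ∨ x ∈ T := by
    intro y hy x hx
    rw [hN', if_pos hy, mem_sdiff, mem_sdiff] at hx
    by_contra hcon
    push Not at hcon
    exact hx.2 ⟨hNX y hy x hx.1 hcon.1, hcon.2⟩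
  have hrefl : ∀ v, v ∈ N' v := by
    intro v
    rw [hN']
    split_ifs with hv
    · rw [mem_sdiff, mem_sdiff]
      exact ⟨h.refl v, fun h' => hLX v h'.1 hv⟩
    · exact h.refl v
  have hce : CE N' := by
    refine ⟨hrefl, fun u v hu hv => h.anti u v (hsub v hu) (hsub u hv), fun v => ?_⟩
    have hv := h.ce v
    by_cases hvX : v ∈ X
    · obtain ⟨D, hD⟩ : ∃ D, D = N v ∩ (L \ T) := ⟨_, rfl⟩
      obtain ⟨E, hE⟩ : ∃ E, E = NS N D \ (NS N T ∪ X) := ⟨_, rfl⟩
      have hDL : D ⊆ L := by
        rw [hD]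
        exact inter_subset_right.trans sdiff_subset
      have c1 : (N' v).card + D.card = (N v).card := by
        rw [hN', if_pos hvX, hD]
        exact card_sdiff_add_card_inter _ _
      have c2 : (T ∪ D).card = T.card + D.card := by
        apply card_union_of_disjoint
        rw [disjoint_left]
        intro x hx hx'
        rw [hD, mem_inter, mem_sdiff] at hx'
        exact hx'.2.2 hx
      have c3 : (NS N (T ∪ D) \ X).card = (NS N T \ X).card + E.card := by
        rw [← card_union_of_disjoint]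
        · congr 1
          ext x
          rw [hE, NS_union]
          simp only [mem_sdiff, mem_union]
          tauto
        · rw [disjoint_left]
          intro x hx hx'
          rw [hE, mem_sdiff, mem_union] at hx'
          rw [mem_sdiff] at hx
          exact hx'.2 (Or.inl hx.1)
      have c4 := hmin' (T ∪ D) (union_subset hT.subset hDL)
      have c5 : (NS N' (N' v) \ N' v) ∪ E ⊆ (NS N (N v) \ N v) ∪ D := by
        intro x hx
        have hx1 : x ∈ NS N (N v) := by
          rw [mem_union] at hx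
          rcases hx with hx | hx
          · rw [mem_sdiff, mem_NS] at hx
            obtain ⟨⟨u, hu, hxu⟩, _⟩ := hx
            exact mem_NS.2 ⟨u, hsub v hu, hsub u hxu⟩
          · rw [hE, mem_sdiff, mem_NS] at hx
            obtain ⟨⟨u, hu, hxu⟩, _⟩ := hx
            rw [hD, mem_inter] at hu
            exact mem_NS.2 ⟨u, hu.1, hxu⟩
        rw [mem_union, mem_sdiff]
        by_cases hxv : x ∈ N v
        · right
          rw [hD, mem_inter, mem_sdiff]
          refine ⟨hxv, ?_⟩
          rw [mem_union] at hx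
          rcases hx with hx | hx
          · rw [mem_sdiff, hN' v, if_pos hvX, mem_sdiff, mem_sdiff] at hx
            by_contra hcon
            exact hx.2 ⟨hxv, hcon⟩
          · rw [hE, mem_sdiff, mem_union] at hx
            push Not at hx
            exact ⟨hNX v hvX x hxv hx.2.2, fun h' => hx.2.1 (subset_NS h.refl T h')⟩
        · exact Or.inl ⟨hx1, hxv⟩
      have c6 : Disjoint (NS N' (N' v) \ N' v) E := by
        rw [disjoint_left]
        intro x hx hx'
        rw [mem_sdiff, mem_NS] at hx
        rw [hE, mem_sdiff, mem_union] at hx'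
        push Not at hx'
        obtain ⟨⟨u, hu, hxu⟩, _⟩ := hx
        rcases hinX v hvX u hu with hu | hu
        · rcases hinX u hu x hxu with hx | hx
          · exact hx'.2.2 hx
          · exact hx'.2.1 (subset_NS h.refl T hx)
        · exact hx'.2.1 (mem_NS.2 ⟨u, hu, hsub u hxu⟩)
      have c7 := card_le_card c5
      rw [card_union_of_disjoint c6] at c7
      have c8 := card_union_le (NS N (N v) \ N v) D
      have c9 : cn N (N v) = (NS N (N v) \ N v).card := rfl
      have c10 : cn N' (N' v) = (NS N' (N' v) \ N' v).card := rfl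
      rw [c3, c2] at c4
      push_cast at c4
      omega
    · have hv' : N' v = N v := by rw [hN', if_neg hvX]
      rw [hv']
      refine lt_of_le_of_lt ?_ hv
      apply Nat.succ_le_succ
      apply card_le_card
      apply sdiff_subset_sdiff _ (Subset.refl _)
      intro x hx
      rw [mem_NS] at hx ⊢
      obtain ⟨u, hu, hxu⟩ := hx
      exact ⟨u, hu, hsub u hxu⟩
  have hlt : ∑ v, (N' v).card < ∑ v, (N v).card := by
    obtain ⟨u, huL, huT⟩ := exists_of_ssubset hT
    have huX := hLX u huL
    have huN : u ∈ NS N X := by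
      rw [hL, mem_sdiff] at huL
      exact huL.1
    obtain ⟨y, hy, huy⟩ := mem_NS.1 huN
    refine sum_lt_sum (fun v _ => card_le_card (hsub v)) ⟨y, mem_univ _, ?_⟩
    apply card_lt_card
    refine ⟨hsub y, fun h' => ?_⟩
    rcases hinX y hy u (h' huy) with h1 | h1
    · exact huX h1
    · exact huT h1
  exact absurd (hmin N' hce) (not_le.2 hlt)

/-- There is no counterexample. -/
theorem no_CE [Nonempty V] {N₀ : V → Finset V} (h₀ : CE N₀) : False := by
  classical
  -- an arc-minimal counterexample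
  obtain ⟨N, h, hmin⟩ : ∃ N : V → Finset V, CE N ∧
      ∀ N' : V → Finset V, CE N' → ∑ v, (N v).card ≤ ∑ v, (N' v).card := by
    have hex : ∃ n, ∃ N : V → Finset V, CE N ∧ ∑ v, (N v).card = n := ⟨_, N₀, h₀, rfl⟩
    obtain ⟨N, h1, h2⟩ := Nat.find_spec hex
    exact ⟨N, h1, fun N' h' => h2 ▸ Nat.find_min' hex ⟨N', h', rfl⟩⟩
  have hG := minimal_G h hmin
  have hG' : ∀ X, cn N (NS N X) ≤ cn N X := by
    intro X
    by_cases hX : NS N X = X
    · rw [hX]
    · exact (hG X hX).le
  -- an outer minimiser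
  obtain ⟨P, Q, hf, hPQ⟩ : ∃ P Q : V → Finset V, Feas N P Q ∧
      ∀ P' Q', Feas N P' Q' → cost N P Q ≤ cost N P' Q' := by
    have hex : ∃ n, ∃ P Q : V → Finset V, Feas N P Q ∧ cost N P Q = n :=
      ⟨_, N, N, ⟨fun _ => Subset.refl _, fun _ => Subset.refl _,
        fun a b hb ha => h.anti a b ha hb⟩, rfl⟩
    obtain ⟨P, Q, h1, h2⟩ := Nat.find_spec hex
    exact ⟨P, Q, h1, fun P' Q' h' => h2 ▸ Nat.find_min' hex ⟨P', Q', h', rfl⟩⟩
  have hin := inner_le_outer h.refl hf hPQ
  have hf' : Feas N (fun a => NS N (er N P a)) (fun b => NS N (er N Q b)) := by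
    constructor
    · intro a
      refine fun x hx => mem_NS.2 ⟨a, mem_er.2 fun z hz => hf.hP z hz, hx⟩
    · intro a
      refine fun x hx => mem_NS.2 ⟨a, mem_er.2 fun z hz => hf.hQ z hz, hx⟩
    · intro a b hb ha
      obtain ⟨x, hx, hbx⟩ := mem_NS.1 hb
      obtain ⟨y, hy, hay⟩ := mem_NS.1 ha
      have e1 : y = x := hf.hc y x (mem_er.1 hx y hay) (mem_er.1 hy x hbx)
      subst e1
      have e2 : a = y := hf.hc a y (mem_er.1 hx a (h.refl a)) (hf.hQ y hay)
      have e3 : y = b := hf.hc y b (hf.hP y hbx) (mem_er.1 hy b (h.refl b))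
      exact e2.trans e3
  have hle := hPQ _ _ hf'
  have hclosed : ∀ a, NS N (er N P a) = er N P a := by
    by_contra hcon
    push Not at hcon
    obtain ⟨a, ha⟩ := hcon
    have h1 : ∑ a, cn N (NS N (er N P a)) < ∑ a, cn N (er N P a) :=
      sum_lt_sum (fun v _ => hG' _) ⟨a, mem_univ _, hG _ ha⟩
    have h2 : ∑ a, cn N (NS N (er N Q a)) ≤ ∑ a, cn N (er N Q a) :=
      sum_le_sum fun v _ => hG' _
    unfold cost at hin hle
    beta_reduce at hin hle
    omega
  -- a minimal closed set
  obtain ⟨C, hC, hCmin⟩ := exists_min_image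
    (univ.filter fun C : Finset V => C.Nonempty ∧ NS N C = C) card
    ⟨univ, by
      simp only [mem_filter, mem_univ, true_and]
      exact ⟨univ_nonempty, univ_subset_iff.1 (subset_NS h.refl univ)⟩⟩
  rw [mem_filter] at hC
  obtain ⟨_, ⟨a, ha⟩, hCc⟩ := hC
  have hsub : ∀ b ∈ C, C ⊆ er N P b := by
    intro b hb
    have hbb : b ∈ er N P b := mem_er.2 fun z hz => hf.hP z hz
    have h1 := hCmin (er N P b ∩ C) (by
      rw [mem_filter]
      refine ⟨mem_univ _, ⟨b, mem_inter.2 ⟨hbb, hb⟩⟩, ?_⟩
      apply Subset.antisymm _ (subset_NS h.refl _)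
      apply subset_inter
      · exact (NS_mono inter_subset_left).trans (hclosed b).subset
      · exact (NS_mono inter_subset_right).trans hCc.subset)
    have h2 := eq_of_subset_of_card_le (inter_subset_right (s₁ := er N P b) (s₂ := C)) h1
    rw [← h2]
    exact inter_subset_left
  have hcard : 1 < (N a).card := by
    have := h.ce a
    omega
  obtain ⟨b, hb, hba⟩ := exists_mem_ne hcard a
  have hbC : b ∈ C := by
    rw [← hCc]
    exact mem_NS.2 ⟨a, ha, hb⟩
  have h1 : a ∈ P b := mem_er.1 (hsub b hbC ha) b (h.refl b)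
  exact hba (hf.hc b a h1 (hf.hQ a hb))

end Vale.Agent.P038.H248

namespace Vale.Agent.P038.H248

open Vale.Agent.P038

/-- Seymour's second neighbourhood conjecture. -/
theorem seymour {V : Type*} [Fintype V] [Nonempty V] (D : OGraph V) :
    ∃ v, (N1 D v).card ≤ (N2 D v).card := by
  classical
  by_contra hcon
  push Not at hcon
  refine no_CE (V := V) (N₀ := fun v => insert v (N1 D v)) ⟨?_, ?_, ?_⟩
  · intro v
    exact mem_insert_self _ _
  · intro u v hu hv
    rw [mem_insert, mem_N1] at hu hv
    rcases hu with hu | hu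
    · exact hu
    · rcases hv with hv | hv
      · exact hv.symm
      · exact absurd hv (D.asymm _ _ hu)
  · intro v
    have h1 : (insert v (N1 D v)).card = (N1 D v).card + 1 := by
      apply card_insert_of_notMem
      rw [mem_N1]
      exact D.loopless v
    have h2 : NS (fun v => insert v (N1 D v)) (insert v (N1 D v)) \ insert v (N1 D v) ⊆
        N2 D v := by
      intro x hx
      rw [mem_sdiff, mem_NS, mem_insert] at hx
      push Not at hx
      obtain ⟨⟨u, hu, hxu⟩, hxv, hx⟩ := hx
      rw [mem_N1] at hx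
      rw [mem_N2]
      refine ⟨hxv, hx, ?_⟩
      rw [mem_insert, mem_N1] at hu hxu
      rcases hu with rfl | hu
      · rcases hxu with h' | h'
        · exact absurd h' hxv
        · exact absurd h' hx
      · rcases hxu with h' | h'
        · exact absurd (h' ▸ hu) hx
        · exact ⟨u, hu, h'⟩
    have h3 := card_le_card h2
    have h4 := hcon v
    have h5 : cn (fun v => insert v (N1 D v)) (insert v (N1 D v)) ≤ (N2 D v).card := h3
    show cn (fun v => insert v (N1 D v)) (insert v (N1 D v)) + 1 < (insert v (N1 D v)).card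
    omega

end Vale.Agent.P038.H248
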