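import Mathlib

/-!
# P038: the two-dimensional inequality (helper248, following notes 22687 and 22807)

`N v` is the closed out-neighbourhood of `v`, everything is unweighted.
-/

open Finset

namespace Vale.Agent.P038.H248

variable {V : Type*} [Fintype V] [DecidableEq V]

/-- Closed out-neighbourhood of a set. -/
def NS (N : V → Finset V) (S : Finset V) : Finset V := univ.filter fun x => ∃ s ∈ S, x ∈ N s

theorem mem_NS {N : V → Finset V} {S : Finset V} {x : V} : x ∈ NS N S ↔ ∃ s ∈ S, x ∈ N s := by
  simp [NS]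

theorem NS_mono {N : V → Finset V} {S T : Finset V} (h : S ⊆ T) : NS N S ⊆ NS N T := by
  intro x hx
  rw [mem_NS] at hx ⊢
  obtain ⟨s, hs, hx⟩ := hx
  exact ⟨s, h hs, hx⟩

theorem NS_union {N : V → Finset V} {S T : Finset V} : NS N (S ∪ T) = NS N S ∪ NS N T := by
  ext x
  simp only [mem_NS, mem_union]
  constructor
  · rintro ⟨s, hs | hs, hx⟩
    · exact Or.inl ⟨s, hs, hx⟩
    · exact Or.inr ⟨s, hs, hx⟩
  · rintro (⟨s, hs, hx⟩ | ⟨s, hs, hx⟩)
    · exact ⟨s, Or.inl hs, hx⟩
    · exact ⟨s, Or.inr hs, hx⟩

theorem subset_NS {N : V → Finset V} (hN : ∀ v, v ∈ N v) (S : Finset V) : S ⊆ NS N S :=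
  fun x hx => mem_NS.2 ⟨x, hx, hN x⟩

/-- The size of the open out-neighbourhood of a set. -/
def cn (N : V → Finset V) (S : Finset V) : ℕ := (NS N S \ S).card

theorem cn_add {N : V → Finset V} (hN : ∀ v, v ∈ N v) (S : Finset V) :
    cn N S + S.card = (NS N S).card := by
  unfold cn
  exact card_sdiff_add_card_eq_card (subset_NS hN S)

theorem cn_submod {N : V → Finset V} (hN : ∀ v, v ∈ N v) (S T : Finset V) :
    cn N (S ∩ T) + cn N (S ∪ T) ≤ cn N S + cn N T := by
  have h1 := cn_add hN S
  have h2 := cn_add hN T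
  have h3 := cn_add hN (S ∩ T)
  have h4 := cn_add hN (S ∪ T)
  have h5 := card_union_add_card_inter S T
  have h6 := card_union_add_card_inter (NS N S) (NS N T)
  have h7 : (NS N (S ∩ T)).card ≤ (NS N S ∩ NS N T).card :=
    card_le_card (subset_inter (NS_mono inter_subset_left) (NS_mono inter_subset_right))
  rw [NS_union] at h4
  omega

/-- The minimum of `f` over the interval `[lo, hi]`. -/
noncomputable def mn (f : Finset V → ℕ) (lo hi : Finset V) : ℕ :=
  sInf {n | ∃ S, lo ⊆ S ∧ S ⊆ hi ∧ f S = n}

omit [Fintype V] [DecidableEq V] in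
theorem mn_le {f : Finset V → ℕ} {lo hi S : Finset V} (h1 : lo ⊆ S) (h2 : S ⊆ hi) :
    mn f lo hi ≤ f S := Nat.sInf_le ⟨S, h1, h2, rfl⟩

omit [Fintype V] [DecidableEq V] in
theorem mn_spec {f : Finset V → ℕ} {lo hi : Finset V} (h : lo ⊆ hi) :
    ∃ S, lo ⊆ S ∧ S ⊆ hi ∧ f S = mn f lo hi :=
  Nat.sInf_mem (s := {n | ∃ S, lo ⊆ S ∧ S ⊆ hi ∧ f S = n}) ⟨f hi, hi, h, Subset.refl _, rfl⟩

omit [Fintype V] [DecidableEq V] in
theorem mn_mono {f : Finset V → ℕ} {lo lo' hi : Finset V} (h : lo ⊆ lo') (h' : lo' ⊆ hi) :
    mn f lo hi ≤ mn f lo' hi := by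
  obtain ⟨S, h1, h2, h3⟩ := mn_spec (f := f) h'
  rw [← h3]
  exact mn_le (h.trans h1) h2

omit [Fintype V] [DecidableEq V] in
theorem mn_self {f : Finset V → ℕ} {hi : Finset V} : mn f hi hi = f hi := by
  obtain ⟨S, h1, h2, h3⟩ := mn_spec (f := f) (Subset.refl hi)
  rw [← h3, Subset.antisymm h2 h1]

omit [Fintype V] [DecidableEq V] in
theorem mn_lo {f : Finset V → ℕ} {lo hi : Finset V} (h : lo ⊆ hi)
    (hmin : ∀ S, lo ⊆ S → S ⊆ hi → f lo ≤ f S) : mn f lo hi = f lo := by
  obtain ⟨S, h1, h2, h3⟩ := mn_spec (f := f) h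
  apply le_antisymm (mn_le (Subset.refl _) h)
  rw [← h3]
  exact hmin S h1 h2

omit [DecidableEq V] in
/-- Layer cake: comparison of all level sets compares the sums. -/
theorem sum_le_of_level {d e : V → ℕ}
    (h : ∀ t, (univ.filter fun a => t < d a).card ≤ (univ.filter fun a => t < e a).card) :
    ∑ a, d a ≤ ∑ a, e a := by
  classical
  obtain ⟨M, hM⟩ : ∃ M, ∀ a, d a ≤ M ∧ e a ≤ M := by
    refine ⟨∑ a, d a + ∑ a, e a, fun a => ⟨?_, ?_⟩⟩
    · exact (single_le_sum (f := d) (fun _ _ => Nat.zero_le _) (mem_univ a)).trans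
        (Nat.le_add_right _ _)
    · exact (single_le_sum (f := e) (fun _ _ => Nat.zero_le _) (mem_univ a)).trans
        (Nat.le_add_left _ _)
  have key : ∀ f : V → ℕ, (∀ a, f a ≤ M) →
      ∑ a, f a = ∑ t ∈ range M, (univ.filter fun a => t < f a).card := by
    intro f hf
    simp only [card_filter]
    rw [sum_comm]
    refine sum_congr rfl fun a _ => ?_
    rw [← card_filter]
    have : ((range M).filter fun t => t < f a) = range (f a) := by
      ext t
      simp only [mem_filter, mem_range]
      have := hf a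
      omega
    rw [this, card_range]
  rw [key d fun a => (hM a).1, key e fun a => (hM a).2]
  exact sum_le_sum fun t _ => h t

/-- The row erosion. -/
def er (N L : V → Finset V) (v : V) : Finset V := univ.filter fun x => ∀ z, v ∈ N z → x ∈ L z

theorem mem_er {N L : V → Finset V} {v x : V} : x ∈ er N L v ↔ ∀ z, v ∈ N z → x ∈ L z := by
  simp [er]

/-- The inequality (STAR) (notes 22687, 22807): a telescoping comparison of interval minima. -/
theorem star {N : V → Finset V} (hN : ∀ v, v ∈ N v) {L U : V → Finset V} (hLU : ∀ a, L a ⊆ U a)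
    (hrow : ∀ a S, L a ⊆ S → S ⊆ U a → cn N (L a) ≤ cn N S)
    (hcol : ∀ b (T : Finset V), (∀ a ∈ T, b ∈ U a ∧ b ∉ L a) →
      T.card ≤ ((NS N T).filter fun v => b ∈ er N U v).card) :
    ∑ a, cn N (U a) + ∑ v, cn N (er N L v) ≤ ∑ v, cn N (er N U v) + ∑ a, cn N (L a) := by
  classical
  have hXX : ∀ v, er N L v ⊆ er N U v := fun v x hx => by
    rw [mem_er] at hx ⊢
    exact fun z hz => hLU z (hx z hz)
  have hXL : ∀ a v, v ∈ N a → er N L v ⊆ L a := fun a v hv x hx => mem_er.1 hx a hv
  have hXU : ∀ a v, v ∈ N a → er N U v ⊆ U a := fun a v hv x hx => mem_er.1 hx a hv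
  -- the interval minima
  have hlo : ∀ (A B C : Finset V), A ⊆ C → A ∪ (B ∩ C) ⊆ C := fun A B C h =>
    union_subset h inter_subset_right
  have hmono : ∀ (A B B' C : Finset V), A ⊆ C → B ⊆ B' →
      mn (cn N) (A ∪ (B ∩ C)) C ≤ mn (cn N) (A ∪ (B' ∩ C)) C := fun A B B' C h hB =>
    mn_mono (union_subset_union (Subset.refl _) (inter_subset_inter hB (Subset.refl _)))
      (hlo A B' C h)
  have step : ∀ B : Finset V,
      ∑ a, mn (cn N) (L a ∪ (B ∩ U a)) (U a) + ∑ v, mn (cn N) (er N L v) (er N U v) ≤
      ∑ v, mn (cn N) (er N L v ∪ (B ∩ er N U v)) (er N U v) + ∑ a, mn (cn N) (L a) (U a) := by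
    intro B
    induction B using Finset.induction_on with
    | empty => simp [add_comm]
    | insert b B hb ih =>
      have hle : ∑ a, (mn (cn N) (L a ∪ (insert b B ∩ U a)) (U a) -
            mn (cn N) (L a ∪ (B ∩ U a)) (U a)) ≤
          ∑ v, (mn (cn N) (er N L v ∪ (insert b B ∩ er N U v)) (er N U v) -
            mn (cn N) (er N L v ∪ (B ∩ er N U v)) (er N U v)) := by
        apply sum_le_of_level
        intro t
        refine (hcol b _ ?_).trans (card_le_card ?_)
        · intro a ha
          rw [mem_filter] at ha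
          by_contra hcon
          have : L a ∪ (insert b B ∩ U a) = L a ∪ (B ∩ U a) := by
            ext x
            simp only [mem_union, mem_inter, mem_insert]
            constructor
            · rintro (h | ⟨rfl | h, h'⟩)
              · exact Or.inl h
              · left
                by_contra hx
                exact hcon ⟨h', hx⟩
              · exact Or.inr ⟨h, h'⟩
            · rintro (h | ⟨h, h'⟩)
              · exact Or.inl h
              · exact Or.inr ⟨Or.inr h, h'⟩
          rw [this] at ha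
          omega
        · intro v hv
          rw [mem_filter, mem_NS] at hv
          obtain ⟨⟨a, ha, hva⟩, hbv⟩ := hv
          rw [mem_filter] at ha ⊢
          refine ⟨mem_univ _, lt_of_lt_of_le ha.2 ?_⟩
          obtain ⟨S, hS1, hS2, hS3⟩ := mn_spec (f := cn N) (hlo (er N L v) (insert b B)
            (er N U v) (hXX v))
          obtain ⟨R, hR1, hR2, hR3⟩ := mn_spec (f := cn N) (hlo (L a) B (U a) (hLU a))
          have h1 : mn (cn N) (er N L v ∪ (B ∩ er N U v)) (er N U v) ≤ cn N (S ∩ R) := by
            apply mn_le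
            · intro x hx
              rw [mem_union, mem_inter] at hx
              rw [mem_inter]
              rcases hx with hx | ⟨hx, hx'⟩
              · exact ⟨hS1 (mem_union_left _ hx), hR1 (mem_union_left _ (hXL a v hva hx))⟩
              · exact ⟨hS1 (mem_union_right _ (mem_inter.2 ⟨mem_insert_of_mem hx, hx'⟩)),
                  hR1 (mem_union_right _ (mem_inter.2 ⟨hx, hXU a v hva hx'⟩))⟩
            · exact inter_subset_left.trans hS2
          have h2 : mn (cn N) (L a ∪ (insert b B ∩ U a)) (U a) ≤ cn N (S ∪ R) := by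
            apply mn_le
            · intro x hx
              rw [mem_union, mem_inter, mem_insert] at hx
              rw [mem_union]
              rcases hx with hx | ⟨rfl | hx, hx'⟩
              · exact Or.inr (hR1 (mem_union_left _ hx))
              · exact Or.inl (hS1 (mem_union_right _ (mem_inter.2 ⟨mem_insert_self _ _, hbv⟩)))
              · exact Or.inr (hR1 (mem_union_right _ (mem_inter.2 ⟨hx, hx'⟩)))
            · exact union_subset (hS2.trans (hXU a v hva)) hR2
          have h3 := cn_submod hN S R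
          omega
      have e1 : ∑ a, mn (cn N) (L a ∪ (insert b B ∩ U a)) (U a) =
          ∑ a, (mn (cn N) (L a ∪ (insert b B ∩ U a)) (U a) -
            mn (cn N) (L a ∪ (B ∩ U a)) (U a)) + ∑ a, mn (cn N) (L a ∪ (B ∩ U a)) (U a) := by
        rw [← sum_add_distrib]
        refine sum_congr rfl fun a _ => ?_
        have := hmono (L a) B (insert b B) (U a) (hLU a) (subset_insert _ _)
        omega
      have e2 : ∑ v, mn (cn N) (er N L v ∪ (insert b B ∩ er N U v)) (er N U v) =
          ∑ v, (mn (cn N) (er N L v ∪ (insert b B ∩ er N U v)) (er N U v) -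
            mn (cn N) (er N L v ∪ (B ∩ er N U v)) (er N U v)) +
          ∑ v, mn (cn N) (er N L v ∪ (B ∩ er N U v)) (er N U v) := by
        rw [← sum_add_distrib]
        refine sum_congr rfl fun v _ => ?_
        have := hmono (er N L v) B (insert b B) (er N U v) (hXX v) (subset_insert _ _)
        omega
      omega
  have hfin := step univ
  have f1 : ∑ a, mn (cn N) (L a ∪ (univ ∩ U a)) (U a) = ∑ a, cn N (U a) := by
    refine sum_congr rfl fun a _ => ?_
    rw [univ_inter, union_eq_right.2 (hLU a), mn_self]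
  have f2 : ∑ v, mn (cn N) (er N L v ∪ (univ ∩ er N U v)) (er N U v) =
      ∑ v, cn N (er N U v) := by
    refine sum_congr rfl fun v _ => ?_
    rw [univ_inter, union_eq_right.2 (hXX v), mn_self]
  have f3 : ∑ a, mn (cn N) (L a) (U a) = ∑ a, cn N (L a) :=
    sum_congr rfl fun a _ => mn_lo (hLU a) (hrow a)
  have f4 : ∑ v, mn (cn N) (er N L v) (er N U v) = ∑ v, cn N (er N L v) := by
    refine sum_congr rfl fun v _ => mn_lo (hXX v) fun S h1 h2 => ?_
    have peel : ∀ F : Finset V, (∀ z ∈ F, v ∈ N z) →
        cn N (S.filter fun x => ∀ z ∈ F, x ∈ L z) ≤ cn N S := by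
      intro F
      induction F using Finset.induction_on with
      | empty => simp
      | insert z F hz ih =>
        intro hF
        have ih' := ih fun y hy => hF y (mem_insert_of_mem hy)
        have hvz := hF z (mem_insert_self _ _)
        have hsub := cn_submod hN (S.filter fun x => ∀ y ∈ F, x ∈ L y) (L z)
        have hr : cn N (L z) ≤ cn N ((S.filter fun x => ∀ y ∈ F, x ∈ L y) ∪ L z) := by
          apply hrow z _ subset_union_right
          exact union_subset (((filter_subset _ _).trans h2).trans (hXU z v hvz)) (hLU z)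
        have he : (S.filter fun x => ∀ y ∈ insert z F, x ∈ L y) =
            (S.filter fun x => ∀ y ∈ F, x ∈ L y) ∩ L z := by
          ext x
          simp only [mem_filter, mem_inter, mem_insert, forall_eq_or_imp]
          tauto
        rw [he]
        omega
    have hlast := peel (univ.filter fun z => v ∈ N z) (by simp)
    have he : (S.filter fun x => ∀ z ∈ univ.filter (fun z => v ∈ N z), x ∈ L z) = er N L v := by
      ext x
      simp only [mem_filter, mem_univ, true_and, mem_er]
      constructor
      · exact fun h => h.2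
      · exact fun h => ⟨h1 (mem_er.2 h), h⟩
    rw [he] at hlast
    exact hlast
  omega

end Vale.Agent.P038.H248
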